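import Mathlib

/-!
Kronecker's theorem for integral matrices: if all the eigenvalues have modulus at most one and the
determinant is nonzero, some power fixes a nonzero integral covector.
-/

set_option autoImplicit false

namespace Vale.Agent.P151.H854

open Matrix Polynomial

/-- A complex root of the characteristic polynomial is an eigenvalue of the transposed matrix. -/
theorem exists_left_eigenvector {k : ℕ} (B : Matrix (Fin k) (Fin k) ℂ) {μ : ℂ}
    (h : B.charpoly.IsRoot μ) : ∃ v : Fin k → ℂ, v ≠ 0 ∧ v ᵥ* B = μ • v := by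
  have h1 : (scalar (Fin k) μ - B).det = 0 := by
    have := Matrix.eval_charpoly B μ
    rw [← this]; exact h
  obtain ⟨v, hv, hv2⟩ := Matrix.exists_vecMul_eq_zero_iff.2 h1
  refine ⟨v, hv, ?_⟩
  rw [Matrix.vecMul_sub, sub_eq_zero] at hv2
  rw [← hv2, Matrix.scalar_apply, Matrix.vecMul_diagonal_const]
  ext i
  simp [mul_comm]

theorem isRoot_of_left_eigenvector {k : ℕ} (B : Matrix (Fin k) (Fin k) ℂ) {μ : ℂ}
    {v : Fin k → ℂ} (hv : v ≠ 0) (h : v ᵥ* B = μ • v) : B.charpoly.IsRoot μ := by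
  have h1 : (scalar (Fin k) μ - B).det = 0 := by
    refine Matrix.exists_vecMul_eq_zero_iff.1 ⟨v, hv, ?_⟩
    rw [Matrix.vecMul_sub, h, Matrix.scalar_apply, Matrix.vecMul_diagonal_const]
    ext i
    simp [mul_comm]
  have := Matrix.eval_charpoly B μ
  rw [← this] at h1
  exact h1

/-- Kronecker: a root of a monic integral polynomial all of whose nonzero complex roots have
modulus at most one is a root of unity or zero. -/
theorem kronecker {P : ℤ[X]} (hP : P.Monic)
    (hr : ∀ μ : ℂ, (P.map (Int.castRingHom ℂ)).IsRoot μ → ‖μ‖ ≤ 1) {l : ℂ}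
    (hl : (P.map (Int.castRingHom ℂ)).IsRoot l) (h0 : l ≠ 0) : ∃ n, 0 < n ∧ l ^ n = 1 := by
  have hint : IsIntegral ℤ l := by
    refine ⟨P, hP, ?_⟩
    have : eval₂ (algebraMap ℤ ℂ) l P = (P.map (Int.castRingHom ℂ)).eval l := by
      rw [eval_map]; rfl
    rw [this]; exact hl
  have halg : IsIntegral ℚ l := hint.tower_top
  haveI : FiniteDimensional ℚ (IntermediateField.adjoin ℚ {l}) :=
    IntermediateField.adjoin.finiteDimensional halg
  haveI : NumberField (IntermediateField.adjoin ℚ {l}) := ⟨⟩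
  let x : IntermediateField.adjoin ℚ {l} := IntermediateField.AdjoinSimple.gen ℚ l
  have hx : (x : ℂ) = l := IntermediateField.AdjoinSimple.coe_gen ℚ l
  have hx0 : x ≠ 0 := by
    intro h
    apply h0
    rw [← hx, h]; rfl
  have hPx : eval₂ (Int.castRingHom (IntermediateField.adjoin ℚ {l})) x P = 0 := by
    have hinj : Function.Injective (algebraMap (IntermediateField.adjoin ℚ {l}) ℂ) :=
      (algebraMap (IntermediateField.adjoin ℚ {l}) ℂ).injective
    apply hinj
    rw [map_zero, hom_eval₂]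
    have h2 : (algebraMap (IntermediateField.adjoin ℚ {l}) ℂ) x = l := hx
    rw [h2]
    have h3 : (algebraMap (IntermediateField.adjoin ℚ {l}) ℂ).comp
        (Int.castRingHom (IntermediateField.adjoin ℚ {l})) = Int.castRingHom ℂ :=
      RingHom.ext_int _ _
    rw [h3, ← eval_map]
    exact hl
  have hxint : IsIntegral ℤ x := ⟨P, hP, by
    have : (algebraMap ℤ (IntermediateField.adjoin ℚ {l})) =
      Int.castRingHom (IntermediateField.adjoin ℚ {l}) := RingHom.ext_int _ _
    rw [this]; exact hPx⟩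
  have hemb : ∀ φ : IntermediateField.adjoin ℚ {l} →+* ℂ, ‖φ x‖ ≤ 1 := by
    intro φ
    apply hr
    rw [IsRoot.def, eval_map]
    have h3 : φ.comp (Int.castRingHom (IntermediateField.adjoin ℚ {l})) = Int.castRingHom ℂ :=
      RingHom.ext_int _ _
    rw [← h3, ← hom_eval₂, hPx, map_zero]
  obtain ⟨n, hn, hxn⟩ := NumberField.Embeddings.pow_eq_one_of_norm_le_one _ ℂ hx0 hxint hemb
  refine ⟨n, hn, ?_⟩
  rw [← hx]
  have := congrArg (fun y : IntermediateField.adjoin ℚ {l} => (y : ℂ)) hxn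
  simpa using this

/-- If the eigenvalues of the integral matrix `A` have modulus at most one and `det A ≠ 0`, some
power of `A` fixes a nonzero integral row vector. -/
theorem exists_pow_fixed {k : ℕ} (hk : 0 < k) (A : Matrix (Fin k) (Fin k) ℤ) (hdet : A.det ≠ 0)
    (hev : ∀ (μ : ℂ) (v : Fin k → ℂ), v ≠ 0 →
      v ᵥ* A.map (Int.castRingHom ℂ) = μ • v → ‖μ‖ ≤ 1) :
    ∃ m, 0 < m ∧ ∃ v : Fin k → ℤ, v ≠ 0 ∧ v ᵥ* (A ^ m) = v := by
  set B : Matrix (Fin k) (Fin k) ℂ := A.map (Int.castRingHom ℂ) with hB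
  have hchar : B.charpoly = A.charpoly.map (Int.castRingHom ℂ) := by
    rw [hB]; exact Matrix.charpoly_map A (Int.castRingHom ℂ)
  have hdeg : B.charpoly.degree ≠ 0 := by
    rw [Matrix.charpoly_degree_eq_dim]
    simp; omega
  obtain ⟨l, hl⟩ := IsAlgClosed.exists_root B.charpoly hdeg
  have hdetB : B.det ≠ 0 := by
    rw [hB]
    have : (A.map (Int.castRingHom ℂ)).det = ((A.det : ℤ) : ℂ) := by
      rw [← RingHom.mapMatrix_apply, ← RingHom.map_det]; rfl
    rw [this]; exact_mod_cast hdet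
  have hl0 : l ≠ 0 := by
    intro h
    subst h
    obtain ⟨v, hv, hv2⟩ := exists_left_eigenvector B hl
    rw [zero_smul] at hv2
    exact hdetB (Matrix.exists_vecMul_eq_zero_iff.1 ⟨v, hv, hv2⟩)
  have hroots : ∀ μ : ℂ, (A.charpoly.map (Int.castRingHom ℂ)).IsRoot μ → ‖μ‖ ≤ 1 := by
    intro μ hμ
    rw [← hchar] at hμ
    obtain ⟨v, hv, hv2⟩ := exists_left_eigenvector B hμ
    exact hev μ v hv hv2
  obtain ⟨m, hm, hlm⟩ := kronecker (Matrix.charpoly_monic A) hroots (hchar ▸ hl) hl0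
  refine ⟨m, hm, ?_⟩
  obtain ⟨v, hv, hv2⟩ := exists_left_eigenvector B hl
  have hpow : ∀ n : ℕ, v ᵥ* (B ^ n) = l ^ n • v := by
    intro n
    induction n with
    | zero => simp
    | succ n ih =>
      rw [pow_succ, ← Matrix.vecMul_vecMul, ih, Matrix.smul_vecMul, hv2, smul_smul, pow_succ]
  have hz : v ᵥ* (B ^ m - 1) = 0 := by
    rw [Matrix.vecMul_sub, hpow, hlm, one_smul, Matrix.vecMul_one, sub_self]
  have hd1 : (B ^ m - 1).det = 0 := Matrix.exists_vecMul_eq_zero_iff.1 ⟨v, hv, hz⟩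
  have hmap : B ^ m - 1 = (A ^ m - 1).map (Int.castRingHom ℂ) := by
    rw [← RingHom.mapMatrix_apply, map_sub, map_pow, map_one, RingHom.mapMatrix_apply]
  have hd2 : (A ^ m - 1).det = 0 := by
    rw [hmap, ← RingHom.mapMatrix_apply, ← RingHom.map_det] at hd1
    have : (((A ^ m - 1).det : ℤ) : ℂ) = 0 := hd1
    exact_mod_cast this
  obtain ⟨w, hw, hw2⟩ := Matrix.exists_vecMul_eq_zero_iff.2 hd2
  refine ⟨w, hw, ?_⟩
  rw [Matrix.vecMul_sub, Matrix.vecMul_one, sub_eq_zero] at hw2
  exact hw2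

end Vale.Agent.P151.H854
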